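import Crest.Agent.X262.Mv99.Defs
import Crest.Agent.X262.Rig38.Defs
import Crest.Agent.R274.Prod1_134

/-!
# Row 262, G4 (helper7): the interfaces of the layer and the glue to `Top.G4LStmt`

* `Base F L`  : a quartic surface `S`, a cubic `G`, `ℂ(F(G)) = ℂ(S × S)^τ`, and the Pluecker class
  is `LL₁ + LL₂ - m E` (output of START);
* `Lb D N w`, `Gm D N w`, `Gam D j` : deformed line bundles and their global sections;
* `Sc B D`    : the deformed sections of `LL₁ + LL₂ - m E`;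
* `Ln B D`    : the deformed cubic and the deformed line (output of LIFT + RIG);
* `Spc B D P` : specialisation of line bundles from the geometric generic fibre `P`;
* the statements `StartStmt`, `AmpStmt`, `Lift1Stmt`, `LiftStmt`, `GenStmt`, `NrmStmt`, `AlgStmt`
  and the glue `g4L_of`.
-/

set_option autoImplicit false

open PowerSeries
open scoped KaehlerDifferential

noncomputable section

namespace Crest.Agent.X262.G4

open Crest.Agent.X277 Crest.Agent.X277.Lef Crest.Agent.X277.AN.G1 Crest.Agent.X277.BD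
open Crest.Agent.X277.BD.Br (On oP kP At)
open Crest.Agent.X262.Top (Hyp SmCub Lines K3 HXL G4LStmt Reg1)
open Crest.Agent.X262.Mv99 (Qt Dfm Lifts U ser nS KapStmt)
open Crest.Agent.X262.Rig38 (T3 Sy ten plk pv qv OnL GenPt RigStmt RSqStmt)
open Crest.Agent.R274.Prod1_134 (IsPF)

/-! ### the base point of the deformation -/

section Lin

variable {G : MvPolynomial (Fin 6) ℂ} {F L : Type} [Field F] [Algebra ℂ F] [Field L] [Algebra ℂ L]

/-- the second projection -/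
def ι₂ (Λ : Lines G F L) : F →ₐ[ℂ] L := Λ.τ.comp Λ.ι

/-- the class `a₁ + a₂` -/
def box (Λ : Lines G F L) (a : BD ℂ F) : BD ℂ L := pb Λ.ι a + pb (ι₂ Λ) a

/-- the exceptional divisor over the diagonal, `y` homogeneous coordinates on the surface -/
def exc (Λ : Lines G F L) {n : ℕ} (y : Fin n → F) : BD ℂ L :=
  box Λ (mxf ℂ y) - mxf ℂ fun ij : Fin n × Fin n =>
    Λ.ι (y ij.1) * ι₂ Λ (y ij.2) - Λ.ι (y ij.2) * ι₂ Λ (y ij.1)

/-- `f` lies in `F ⊗ F` and vanishes to order `k` along the diagonal (valuative form) -/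
def Dg (Λ : Lines G F L) {n : ℕ} (y : Fin n → F) (k : ℕ) (f : L) : Prop :=
  ∀ V : RZ ℂ L, (∀ g, Λ.ι g ∈ V.1) → (∀ g, ι₂ Λ g ∈ V.1) → V.v f ≤ (-(k • exc Λ y)).val V

end Lin

/-- the special fibre -/
structure Base (F L : Type) [Field F] [Algebra ℂ F] [Algebra.EssFiniteType ℂ F] [Field L]
    [Algebra ℂ L] where
  /-- the quartic -/
  Γ : MvPolynomial (Fin 4) ℂ
  qt : Qt Γ
  /-- the surface -/
  S : Hyp 3 Γ F
  /-- a basis of the differentials -/
  b : Module.Basis (Fin 2) F Ω[F⁄ℂ]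
  /-- the cubic -/
  G : MvPolynomial (Fin 6) ℂ
  cub : SmCub G
  /-- the lines -/
  Λ : Lines G F L
  pf : IsPF Λ.ι (ι₂ Λ)
  /-- the polarisation -/
  LL : BD ℂ F
  LL_on : LL ∈ On S.P
  pos : 0 < bnum [LL, LL]
  /-- the order along the diagonal -/
  m : ℕ
  m_pos : 0 < m
  /-- the normalisation of the Pluecker vector -/
  u : L
  u_ne : u ≠ 0
  par : Λ.τ u = (-1) ^ m * u
  plk : mxf ℂ Λ.plk = box Λ LL - m • exc Λ S.y + pr ℂ u

section Fam

variable {F L : Type} [Field F] [Algebra ℂ F] [Algebra.EssFiniteType ℂ F] [Field L] [Algebra ℂ L]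

/-- the classes which are numerically proportional to the polarisation are large -/
def Base.Large (B : Base F L) (D : ℕ) : Prop := ∀ M ∈ On B.S.P,
  (∀ N ∈ On B.S.P, bnum [B.LL, B.LL] * bnum [M, N] = bnum [M, B.LL] * bnum [B.LL, N]) →
    bnum [M, B.LL] ≠ 0 → (D : ℤ) ≤ bnum [M, M]

/-- the polarisation is free and ample -/
def Base.Amp (B : Base F L) : Prop :=
  Free B.LL ∧ ∃ q : ℕ, 0 < q ∧ Free (q • B.LL - oP B.S.P)

end Fam

section Sec

variable {F : Type} [Field F] [Algebra ℂ F] {Γ : MvPolynomial (Fin 4) ℂ} {S : Hyp 3 Γ F}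
  {M : BD ℂ F} (D : Dfm S M)

/-- the multipliers `w` deform the line bundle `N` along the deformation of the surface -/
def Lb (N : BD ℂ F) (w : Fin 3 → F⟦X⟧) : Prop := (∀ a, constantCoeff (w a) = 1) ∧
  ∀ a b, ∀ x ∈ U S a, x ∈ U S b → ∀ c ∈ ser (nS N x), ∃ c' ∈ ser (nS N x),
    w a * (D.Φ a).ψ c = w b * (D.Φ b).ψ c'

/-- global sections of a deformed line bundle -/
def Gm (N : BD ℂ F) (w : Fin 3 → F⟦X⟧) : Set F⟦X⟧ :=
  {s | ∀ a, ∀ x ∈ U S a, ∃ c ∈ ser (nS N x), s = w a * (D.Φ a).ψ c}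

/-- global sections of the `j`-th power of the deformed polarisation -/
def Gam (j : ℕ) : Set F⟦X⟧ := Gm D (j • M) fun a => (D.Φ a).u ^ j

end Sec

section Fam

variable {F L : Type} [Field F] [Algebra ℂ F] [Algebra.EssFiniteType ℂ F] [Field L] [Algebra ℂ L]

variable (B : Base F L) (D : Dfm B.S B.LL)

/-- the span of the products of sections (Kuenneth) -/
def Kn : Submodule ℂ⟦X⟧ L⟦X⟧ := Submodule.span ℂ⟦X⟧
  {z | ∃ r ∈ Gam D 1, ∃ r' ∈ Gam D 1,
    z = map (B.Λ.ι : F →+* L) r * map (ι₂ B.Λ : F →+* L) r'}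

/-- `x / u` is a deformed section of `LL₁ + LL₂ - m E`, and `x` is symmetric -/
structure Sc (x : L⟦X⟧) : Prop where
  sym : map (B.Λ.τ : L →+* L) x = x
  kn : C B.u⁻¹ * x ∈ Kn B D
  dg : ∀ n, Dg B.Λ B.S.y B.m (B.u⁻¹ * coeff n x)

/-- the deformed cubic and the deformed line -/
structure Ln where
  /-- the cubic -/
  c : T3 ℂ⟦X⟧
  sy : Sy c
  c0 : ∀ i j k, constantCoeff (c i j k) = ten B.G i j k
  /-- the line -/
  a : Fin 8 → L⟦X⟧
  a0 : ∀ i, constantCoeff (a i) = B.Λ.a i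
  on : OnL c (pv a) (qv a)
  /-- the normalisation -/
  w : L⟦X⟧
  w0 : constantCoeff w = 1
  sc : ∀ i j, Sc B D (w * plk (pv a) (qv a) i j)

/-- the direction of the deformation is very general -/
def Kap : Prop := ∀ N ∈ On B.S.P, Lifts B.S D.η N → ∀ N' ∈ On B.S.P,
  bnum [B.LL, B.LL] * bnum [N, N'] = bnum [N, B.LL] * bnum [B.LL, N']


end Fam

/-! ### the statements -/

/-- START + BEAUVILLE -/
def StartStmt : Prop := ∀ D : ℕ, ∃ (F : Type) (_ : Field F) (_ : Algebra ℂ F)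
  (_ : Algebra.EssFiniteType ℂ F) (L : Type) (_ : Field L) (_ : Algebra ℂ L) (B : Base F L),
    B.Large D

/-- AMP: the polarisation is ample because `LL₁ + LL₂ - m E` is free -/
def AmpStmt : Prop := ∀ (F L : Type) [Field F] [Algebra ℂ F] [Algebra.EssFiniteType ℂ F] [Field L]
  [Algebra ℂ L] (B : Base F L), B.Amp


/-- LIFT on the square: the Pluecker coordinates extend -/
def LiftStmt : Prop := ∀ (F L : Type) [Field F] [Algebra ℂ F] [Algebra.EssFiniteType ℂ F] [Field L]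
  [Algebra ℂ L] (B : Base F L) (D : Dfm B.S B.LL), B.Amp →
    ∃ R : ℕ → Submodule ℂ⟦X⟧ L⟦X⟧, (∀ k l, ∀ x ∈ R k, ∀ y ∈ R l, x * y ∈ R (k + l)) ∧
      (∀ k x, X * x ∈ R k → x ∈ R k) ∧
      (∀ k, ∀ x ∈ R k, B.Λ.τ (constantCoeff x) = constantCoeff x ∧
        constantCoeff x ∈ (k • mxf ℂ B.Λ.plk).Sec) ∧
      (∀ x ∈ R 1, Sc B D x) ∧
      ∃ om : Fin 6 → Fin 6 → L⟦X⟧, (∀ i j, om j i = -om i j) ∧ (∀ i j, om i j ∈ R 1) ∧
        ∀ i j, constantCoeff (om i j) = B.Λ.plk (i, j)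

/-- the line is the generic point of the variety of lines -/
def GenStmt : Prop := ∀ (G : MvPolynomial (Fin 6) ℂ) (F L : Type) [Field F] [Algebra ℂ F] [Field L]
  [Algebra ℂ L] (Λ : Lines G F L), SmCub G → GenPt G Λ.a

/-- the variety of lines is normal -/
def NrmStmt : Prop := ∀ (G : MvPolynomial (Fin 6) ℂ) (F L : Type) [Field F] [Algebra ℂ F] [Field L]
  [Algebra ℂ L] (Λ : Lines G F L), SmCub G → GenPt G Λ.a → ∀ (k : ℕ) (s : L), Λ.τ s = s →
    s ∈ (k • mxf ℂ Λ.plk).Sec → s ∈ Rig38.Sec (plk (pv Λ.a) (qv Λ.a)) k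


/-- ALG, final form -/
def Alg2Stmt : Prop := ∀ (F L : Type) [Field F] [Algebra ℂ F] [Algebra.EssFiniteType ℂ F] [Field L]
  [Algebra ℂ L] (B : Base F L) (D : Dfm B.S B.LL) (n : ℕ), B.Amp → Ln B D → Kap B D → B.Large n →
    ∃ G : MvPolynomial (Fin 6) ℂ, SmCub G ∧ HXL n G

/-! ### the glue -/

section Glue

variable {F L : Type} [Field F] [Algebra ℂ F] [Algebra.EssFiniteType ℂ F] [Field L] [Algebra ℂ L]
  {B : Base F L} {D : Dfm B.S B.LL}

theorem smul_eq (g : ℂ⟦X⟧) (x : L⟦X⟧) : g • x = map (algebraMap ℂ L) g * x := Algebra.smul_def g x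

theorem Dg.zero (k : ℕ) : Dg B.Λ B.S.y k 0 := fun V _ _ => by simp

theorem Dg.add {k : ℕ} {f g : L} (hf : Dg B.Λ B.S.y k f) (hg : Dg B.Λ B.S.y k g) :
    Dg B.Λ B.S.y k (f + g) := fun V h h' =>
  (V.v.map_add _ _).trans (max_le (hf V h h') (hg V h h'))

theorem Dg.smul {k : ℕ} {f : L} (c : ℂ) (hf : Dg B.Λ B.S.y k f) :
    Dg B.Λ B.S.y k (algebraMap ℂ L c * f) := fun V h h' => by
  rw [← Algebra.smul_def]
  exact (V.v_smul_le c f).trans (hf V h h')

theorem Dg.sum {k : ℕ} {ι : Type*} (s : Finset ι) {f : ι → L}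
    (hf : ∀ i ∈ s, Dg B.Λ B.S.y k (f i)) : Dg B.Λ B.S.y k (∑ i ∈ s, f i) :=
  Finset.sum_induction f _ (fun _ _ => Dg.add) (Dg.zero k) hf

theorem Sc.zero : Sc B D 0 :=
  ⟨map_zero _, by rw [mul_zero]; exact zero_mem _, fun n => by
    rw [map_zero, mul_zero]; exact Dg.zero _⟩

theorem Sc.add {x y : L⟦X⟧} (hx : Sc B D x) (hy : Sc B D y) : Sc B D (x + y) :=
  ⟨by rw [map_add, hx.sym, hy.sym], by rw [mul_add]; exact add_mem hx.kn hy.kn, fun n => by
    rw [map_add, mul_add]; exact (hx.dg n).add (hy.dg n)⟩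

theorem Sc.smul {x : L⟦X⟧} (g : ℂ⟦X⟧) (hx : Sc B D x) : Sc B D (g • x) := by
  refine ⟨?_, ?_, fun n => ?_⟩
  · rw [smul_eq, map_mul, hx.sym]
    congr 1
    ext n
    simp
  · rw [mul_smul_comm]
    exact Submodule.smul_mem _ _ hx.kn
  · rw [smul_eq, coeff_mul, Finset.mul_sum]
    refine Dg.sum _ fun p _ => ?_
    rw [coeff_map, mul_left_comm]
    exact (hx.dg _).smul _

theorem Sc.sum {ι : Type*} (s : Finset ι) {f : ι → L⟦X⟧} (hf : ∀ i ∈ s, Sc B D (f i)) :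
    Sc B D (∑ i ∈ s, f i) :=
  Finset.sum_induction f _ (fun _ _ => Sc.add) Sc.zero hf

/-- LIFT + RIG -/
theorem ln_of (h1 : LiftStmt) (h2 : GenStmt) (h3 : NrmStmt) (h4 : RSqStmt) (h5 : RigStmt)
    (hA : B.Amp) : Nonempty (Ln B D) := by
  obtain ⟨R, m1, m2, m3, m4, om, o1, o2, o3⟩ := h1 F L B D hA
  have hg := h2 B.G F L B.Λ B.cub
  obtain ⟨O⟩ := h5 B.G B.cub.1 (h4 B.G B.cub.1 B.cub.2) L B.Λ.a hg R
    ⟨m1, m2, fun k _ x hx => h3 B.G F L B.Λ B.cub hg k _ (m3 k x hx).1 (m3 k x hx).2⟩ om o1 o2 o3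
  exact ⟨⟨O.c, O.sy, O.c0, O.a', O.a0, O.on, O.u, O.u0, fun i j => by
    rw [← O.pl i j]
    exact Sc.sum _ fun p _ => (m4 _ (o2 _ _)).smul _⟩⟩


end Glue

/-- **the glue of the layer G4** -/
theorem g4L_of (h0 : StartStmt) (h1 : AmpStmt) (h2 : KapStmt) (h3 : LiftStmt) (h4 : GenStmt)
    (h5 : NrmStmt) (h6 : RSqStmt) (h7 : RigStmt) (h8 : Alg2Stmt) : G4LStmt := by
  intro n
  obtain ⟨F, _, _, _, L, _, _, B, hB⟩ := h0 n
  obtain ⟨D, hD⟩ := h2 F B.Γ B.S B.b B.qt B.LL B.LL_on B.pos.ne'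
  obtain ⟨N⟩ := ln_of (D := D) h3 h4 h5 h6 h7 (h1 F L B)
  exact h8 F L B D n (h1 F L B) N hD hB

end Crest.Agent.X262.G4
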